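import Mathlib

/-!
P254: definitions of the centroid, the covariance matrix and the isotropic constant.
-/

namespace Vale.Agent.P254

open MeasureTheory

variable {n : ℕ}

/-- The centroid of a set in coordinate space. -/
noncomputable def centroid (K : Set (Fin n → ℝ)) (i : Fin n) : ℝ :=
  (volume.real K)⁻¹ * ∫ x in K, x i

/-- The covariance matrix of the uniform measure on a set. -/
noncomputable def cov (K : Set (Fin n → ℝ)) : Matrix (Fin n) (Fin n) ℝ :=
  Matrix.of fun i j => (volume.real K)⁻¹ * ∫ x in K, (x i - centroid K i) * (x j - centroid K j)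

/-- The isotropic constant `(det Σ / vol²) ^ (1/(2n))`. -/
noncomputable def isotropicConst (K : Set (Fin n → ℝ)) : ℝ :=
  ((cov K).det / volume.real K ^ 2) ^ (1 / (2 * (n : ℝ)))

/-- A nondegenerate simplex: the convex hull of `n + 1` affinely independent points. -/
def IsSimplex (K : Set (Fin n → ℝ)) : Prop :=
  ∃ v : Fin (n + 1) → (Fin n → ℝ), AffineIndependent ℝ v ∧ K = convexHull ℝ (Set.range v)

end Vale.Agent.P254
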