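import Vale.Agent.P254.Moments

/-!
P254: the isotropic constant of the convex hull of a simplex and one more point.
-/

namespace Vale.Agent.P254

open MeasureTheory Matrix Finset
open scoped Nat

variable {n : ℕ}

/-- A nontrivial affine equation defines a null set. -/
lemma volume_zero_of_dotProduct_homog {g : Fin (n + 1) → ℝ} (hg : g ≠ 0) :
    volume {x : Fin n → ℝ | g ⬝ᵥ homog x = 0} = 0 := by
  classical
  have hd : ∀ x : Fin n → ℝ, g ⬝ᵥ homog x = g 0 + ∑ i, g i.succ * x i := fun x => by
    simp [dotProduct, Fin.sum_univ_succ]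
  by_cases ht : ∀ i : Fin n, g i.succ = 0
  · convert measure_empty (μ := (volume : Measure (Fin n → ℝ)))
    ext x
    simp only [Set.mem_ofPred_eq, Set.mem_empty_iff_false, iff_false, hd]
    intro h
    simp [ht] at h
    exact hg (funext (Fin.cases h ht))
  · push Not at ht
    obtain ⟨i, hi⟩ := ht
    set ell : (Fin n → ℝ) →ₗ[ℝ] ℝ := ∑ j, g j.succ • LinearMap.proj j with hell
    have hker : LinearMap.ker ell ≠ ⊤ := fun h => hi (by
      have h' : ell (Pi.single i 1) = 0 := LinearMap.mem_ker.1 (h ▸ Submodule.mem_top)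
      simpa [hell, Pi.single_apply] using h')
    set x₀ : Fin n → ℝ := Pi.single i (-(g 0 / g i.succ))
    have hset : {x : Fin n → ℝ | g ⬝ᵥ homog x = 0} =
        (fun x => -x₀ + x) ⁻¹' (LinearMap.ker ell : Set (Fin n → ℝ)) := by
      ext x
      simp [hd, hell, x₀, mul_add, sum_add_distrib, Pi.single_apply]
      field_simp
    rw [hset, measure_preimage_add]
    exact Measure.addHaar_submodule _ _ hker

/-- Barycentric coordinates with respect to `v`. -/
noncomputable def bary (v : Fin (n + 1) → Fin n → ℝ) (x : Fin n → ℝ) : Fin (n + 1) → ℝ :=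
  (vmat v)⁻¹ *ᵥ homog x

lemma bary_eq {v : Fin (n + 1) → Fin n → ℝ} (hv : (vmat v).det ≠ 0) {x : Fin n → ℝ}
    {β : Fin (n + 1) → ℝ} (h1 : ∑ k, β k = 1) (h2 : ∑ k, β k • v k = x) : bary v x = β := by
  rw [bary, (homog_eq_mulVec_iff v β x).2 ⟨h1, h2⟩, mulVec_mulVec,
    nonsing_inv_mul _ (isUnit_iff_ne_zero.2 hv), one_mulVec]

lemma bary_spec {v : Fin (n + 1) → Fin n → ℝ} (hv : (vmat v).det ≠ 0) (x : Fin n → ℝ) :
    ∑ k, bary v x k = 1 ∧ ∑ k, bary v x k • v k = x := by
  rw [← homog_eq_mulVec_iff, bary, mulVec_mulVec,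
    mul_nonsing_inv _ (isUnit_iff_ne_zero.2 hv), one_mulVec]

/-- The matrix replacing column `i` by `μ`. -/
noncomputable def upd (μ : Fin (n + 1) → ℝ) (i : Fin (n + 1)) :
    Matrix (Fin (n + 1)) (Fin (n + 1)) ℝ :=
  (1 : Matrix (Fin (n + 1)) (Fin (n + 1)) ℝ).updateCol i μ

/-- Negative part. -/
noncomputable def neg' (μ : Fin (n + 1) → ℝ) (k : Fin (n + 1)) : ℝ := max (-μ k) 0

/-- Positive part. -/
noncomputable def pos' (μ : Fin (n + 1) → ℝ) (k : Fin (n + 1)) : ℝ := max (μ k) 0

lemma det_upd (μ : Fin (n + 1) → ℝ) (i : Fin (n + 1)) : (upd μ i).det = μ i := by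
  have h := det_updateCol_sum (1 : Matrix (Fin (n + 1)) (Fin (n + 1)) ℝ) i μ
  rw [show (fun k => ∑ j, μ j • (1 : Matrix (Fin (n + 1)) (Fin (n + 1)) ℝ) k j) = μ by
    funext k; simp [one_apply]] at h
  simpa [upd] using h

lemma upd_mul_oneJ (μ : Fin (n + 1) → ℝ) (i a b : Fin (n + 1)) :
    (upd μ i * oneJ n * (upd μ i)ᵀ) a b =
      ((if a = b then 1 else 0) - (if a = i then 1 else 0) * (if b = i then 1 else 0) + μ a * μ b) +
      (1 + μ a - (if a = i then 1 else 0)) * (1 + μ b - (if b = i then 1 else 0)) := by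
  have hr : ∀ a, ∑ k, upd μ i a k = 1 + μ a - (if a = i then 1 else 0) := fun a => by
    have h : ∀ k, upd μ i a k =
        (if a = k then (1 : ℝ) else 0) + if k = i then μ a - (if a = i then 1 else 0) else 0 :=
      fun k => by
        by_cases hk : k = i
        · subst hk; simp [upd]
        · simp [upd, hk, one_apply]
    simp only [h, sum_add_distrib, sum_ite_eq, sum_ite_eq', mem_univ, if_true]
    ring
  have hp : ∑ k, upd μ i a k * upd μ i b k = (if a = b then 1 else 0) -
      (if a = i then 1 else 0) * (if b = i then 1 else 0) + μ a * μ b := by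
    have h : ∀ k, upd μ i a k * upd μ i b k = (if a = k then (if b = k then (1 : ℝ) else 0) else 0)
        + if k = i then μ a * μ b - (if a = i then 1 else 0) * (if b = i then 1 else 0) else 0 :=
      fun k => by
        by_cases hk : k = i
        · subst hk
          simp only [upd, updateCol_self, if_true]
          split_ifs <;> ring
        · simp only [upd, updateCol_ne hk, one_apply, hk, if_false, add_zero]
          split_ifs <;> ring
    simp only [h, sum_add_distrib, sum_ite_eq, sum_ite_eq', mem_univ, if_true]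
    rw [show (if b = a then (1 : ℝ) else 0) = if a = b then 1 else 0 by simp only [eq_comm]]
    ring
  rw [← hp, ← hr, ← hr, oneJ, Matrix.mul_add, Matrix.mul_one, Matrix.add_mul, Matrix.add_apply,
    mul_apply, mul_apply]
  simp [mul_apply, sum_mul, mul_sum]

/-- The matrix `G` of the whole hull in the coordinates of `v`. -/
noncomputable def hullG (μ : Fin (n + 1) → ℝ) : Matrix (Fin (n + 1)) (Fin (n + 1)) ℝ :=
  oneJ n + ∑ i, neg' μ i • (upd μ i * oneJ n * (upd μ i)ᵀ)

lemma hullG_apply (μ : Fin (n + 1) → ℝ) (a b : Fin (n + 1)) :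
    hullG μ a b = (1 + ∑ i, neg' μ i) * (if a = b then 1 else 0) + 1 +
      (∑ i, neg' μ i) * (μ a * μ b + (1 + μ a) * (1 + μ b)) -
      (1 + μ a) * neg' μ b - neg' μ a * (1 + μ b) := by
  rw [hullG, Matrix.add_apply, Matrix.sum_apply]
  simp only [Matrix.smul_apply, upd_mul_oneJ, smul_eq_mul]
  have e : ∀ i, neg' μ i * (((if a = b then (1 : ℝ) else 0) -
      (if a = i then 1 else 0) * (if b = i then 1 else 0) + μ a * μ b) +
      (1 + μ a - (if a = i then 1 else 0)) * (1 + μ b - (if b = i then 1 else 0))) =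
      neg' μ i * ((if a = b then (1 : ℝ) else 0) + μ a * μ b + (1 + μ a) * (1 + μ b)) -
      (1 + μ a) * (if b = i then neg' μ i else 0) -
      (if a = i then neg' μ i else 0) * (1 + μ b) := fun i => by
    split_ifs <;> ring
  simp only [e, sum_sub_distrib, ← sum_mul, ← mul_sum, sum_ite_eq, mem_univ, if_true]
  simp [oneJ, one_apply]
  split_ifs <;> ring

lemma sum_hullG (μ : Fin (n + 1) → ℝ) (hμ : ∑ k, μ k = 1) :
    ∑ a, ∑ b, hullG μ a b = ((n : ℝ) + 1) * ((n : ℝ) + 2) * (1 + ∑ i, neg' μ i) := by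
  have hu : ∑ k, (1 + μ k) = (n : ℝ) + 2 := by
    simp [sum_add_distrib, hμ]; ring
  simp only [hullG_apply, sum_add_distrib, sum_sub_distrib, ← mul_sum, ← sum_mul, sum_ite_eq,
    mem_univ, if_true, sum_const, card_univ, Fintype.card_fin, nsmul_eq_mul, hμ, hu]
  push_cast
  ring

lemma det_hullG (μ : Fin (n + 1) → ℝ) (hμ : ∑ k, μ k = 1) {P R Q : ℝ}
    (hP : P = ∑ i, neg' μ i) (hR : R = ∑ i, neg' μ i ^ 2) (hQ : Q = ∑ i, pos' μ i ^ 2) :
    (hullG μ).det * (1 + P) ^ 3 = (1 + P) ^ (n + 1) *
      (((n : ℝ) + 2) * (1 + P) * ((1 + R + Q) * (1 + P) ^ 2 - (1 + R) * Q)) := by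
  have hP0 : 0 ≤ P := hP ▸ sum_nonneg fun i _ => le_max_right _ _
  have h1P : (1 + P : ℝ) ≠ 0 := by linarith
  set X : Matrix (Fin (n + 1)) (Fin 3) ℝ := Matrix.of fun a => ![1, μ a, neg' μ a] with hX
  set C : Matrix (Fin 3) (Fin 3) ℝ := !![1 + P, P, -1; P, 2 * P, -1; -1, -1, 0] with hC
  have hG : hullG μ = (1 + P) • (1 + X * ((1 + P)⁻¹ • (C * Xᵀ))) := by
    ext a b
    rw [hullG_apply, ← hP, Matrix.mul_smul, smul_add, smul_inv_smul₀ h1P, Matrix.add_apply,
      Matrix.smul_apply, one_apply]
    simp [mul_apply, vecMul, dotProduct, Fin.sum_univ_three, hX, hC]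
    split_ifs <;> ring
  have hprod : ∀ i, μ i * μ i = pos' μ i ^ 2 + neg' μ i ^ 2 ∧
      μ i * neg' μ i = -neg' μ i ^ 2 := fun i => by
    rcases le_total 0 (μ i) with h | h
    · simp [pos', neg', max_eq_left h, max_eq_right (neg_nonpos.2 h), sq]
    · simp [pos', neg', max_eq_right h, max_eq_left (neg_nonneg.2 h), sq]
  have hgram : Xᵀ * X = !![(n : ℝ) + 1, 1, P; 1, Q + R, -R; P, -R, R] := by
    have h2 : ∑ i, μ i * μ i = Q + R := by
      rw [hQ, hR, ← sum_add_distrib]; exact sum_congr rfl fun i _ => (hprod i).1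
    have h3 : ∑ i, μ i * neg' μ i = -R := by
      rw [hR, ← sum_neg_distrib]; exact sum_congr rfl fun i _ => (hprod i).2
    have h4 : ∑ i, neg' μ i * μ i = -R := by simpa [mul_comm] using h3
    have h5 : ∑ i, neg' μ i * neg' μ i = R := by simp [hR, sq]
    ext a b
    fin_cases a <;> fin_cases b <;> simp [mul_apply, hX, hμ, ← hP, h2, h3, h4, h5]
  have h3det : ((1 + P) • (1 : Matrix (Fin 3) (Fin 3) ℝ) + C * (Xᵀ * X)).det =
      ((n : ℝ) + 2) * (1 + P) * ((1 + R + Q) * (1 + P) ^ 2 - (1 + R) * Q) := by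
    rw [hgram, det_fin_three]
    simp [hC]
    ring
  rw [hG, det_smul, Fintype.card_fin, det_one_add_mul_comm, ← h3det]
  have e : (1 + P) • (1 : Matrix (Fin 3) (Fin 3) ℝ) + C * (Xᵀ * X) =
      (1 + P) • (1 + (1 + P)⁻¹ • (C * Xᵀ) * X) := by
    rw [smul_add, Matrix.smul_mul, smul_inv_smul₀ h1P, Matrix.mul_assoc]
  rw [e, det_smul, Fintype.card_fin]
  ring

section hull

variable (v : Fin (n + 1) → Fin n → ℝ) (q : Fin n → ℝ)

/-- The hull of `v` and `q`. -/
def hull : Set (Fin n → ℝ) := convexHull ℝ (Set.range (Option.elim' q v))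

/-- The simplices of the triangulation. -/
def piece : Option (Fin (n + 1)) → Fin (n + 1) → Fin n → ℝ
  | none => v
  | some i => Function.update v i q

variable {v q}

lemma mem_hull {x : Fin n → ℝ} : x ∈ hull v q ↔ ∃ (d : ℝ) (c : Fin (n + 1) → ℝ),
    0 ≤ d ∧ (∀ k, 0 ≤ c k) ∧ d + ∑ k, c k = 1 ∧ d • q + ∑ k, c k • v k = x := by
  rw [hull, mem_convexHull_range]
  constructor
  · rintro ⟨β, h0, h1, h2⟩
    rw [Fintype.sum_option] at h1 h2
    exact ⟨β none, fun k => β (some k), h0 _, fun k => h0 _, h1, h2⟩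
  · rintro ⟨d, c, hd, hc, h1, h2⟩
    refine ⟨Option.elim' d c, fun k => by cases k <;> simp [hd, hc], ?_, ?_⟩
    · rw [Fintype.sum_option]; exact h1
    · rw [Fintype.sum_option]; exact h2

lemma isCompact_hull : IsCompact (hull v q) :=
  (Set.finite_range _).isCompact_convexHull ℝ

lemma piece_subset (o : Option (Fin (n + 1))) :
    convexHull ℝ (Set.range (piece v q o)) ⊆ hull v q := by
  refine convexHull_mono ?_
  rintro _ ⟨k, rfl⟩
  cases o with
  | none => exact ⟨some k, rfl⟩
  | some i =>
    by_cases h : k = i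
    · exact ⟨none, by simp [piece, h]⟩
    · exact ⟨some k, by simp [piece, h]⟩

variable (hv : (vmat v).det ≠ 0)
include hv

lemma vmat_update (i : Fin (n + 1)) :
    vmat (Function.update v i q) = vmat v * upd (bary v q) i := by
  ext a k
  rw [mul_apply]
  by_cases hk : k = i
  · subst hk
    have h := congrFun ((homog_eq_mulVec_iff v (bary v q) q).2 (bary_spec hv q)) a
    simpa [vmat, upd, mulVec, dotProduct] using h
  · simp [vmat, upd, hk, one_apply]

lemma det_vmat_update (i : Fin (n + 1)) :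
    (vmat (Function.update v i q)).det = (vmat v).det * bary v q i := by
  rw [vmat_update hv, det_mul, det_upd]

lemma bary_piece {i : Fin (n + 1)} {x : Fin n → ℝ}
    (hx : x ∈ convexHull ℝ (Set.range (Function.update v i q))) :
    ∃ d, 0 ≤ d ∧ bary v x i = d * bary v q i ∧ ∀ k, 0 ≤ bary v x k - d * bary v q k := by
  obtain ⟨β, h0, h1, h2⟩ := (mem_convexHull_range _ x).1 hx
  set μ := bary v q
  obtain ⟨hμ1, hμ2⟩ : ∑ k, μ k = 1 ∧ ∑ k, μ k • v k = q := bary_spec hv q
  have hb : bary v x = fun k => (if k = i then 0 else β k) + β i * μ k := by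
    refine bary_eq hv ?_ ?_
    · rw [sum_add_distrib, ← mul_sum, hμ1, sum_ite, sum_const_zero, zero_add,
        filter_ne', sum_erase_eq_sub (mem_univ i), h1]
      ring
    · have e : ∀ k, β k • Function.update v i q k =
          (if k = i then 0 else β k) • v k + if k = i then β i • q else 0 := fun k => by
        by_cases h : k = i
        · subst h; simp
        · simp [h]
      simp only [add_smul, sum_add_distrib, mul_smul, ← smul_sum, hμ2]
      simp only [e, sum_add_distrib, sum_ite_eq', mem_univ, if_true] at h2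
      exact h2
  refine ⟨β i, h0 i, by simp [hb], fun k => ?_⟩
  simp only [hb, add_sub_cancel_right]
  split_ifs
  · exact le_rfl
  · exact h0 k

/-- The moment matrix of the hull. -/
lemma moment_hull : moment (hull v q) = (|(vmat v).det| / ((n + 2)! : ℝ)) •
    (vmat v * hullG (bary v q) * (vmat v)ᵀ) := by
  classical
  set μ := bary v q with hμ
  obtain ⟨hμ1, hμ2⟩ : ∑ k, μ k = 1 ∧ ∑ k, μ k • v k = q := bary_spec hv q
  set J := Option {i // μ i < 0}
  set pc : J → Set (Fin n → ℝ) := fun o =>
    convexHull ℝ (Set.range (piece v q (o.map Subtype.val))) with hpc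
  have hcompact : ∀ o, IsCompact (pc o) := fun o => (Set.finite_range _).isCompact_convexHull ℝ
  have hunion : hull v q = ⋃ o, pc o := by
    refine Set.Subset.antisymm (fun x hx => ?_) (Set.iUnion_subset fun o => piece_subset _)
    obtain ⟨d, c, hd, hc, h1, h2⟩ := mem_hull.1 hx
    rw [← hμ2, smul_sum] at h2
    simp only [smul_smul, ← sum_add_distrib, ← add_smul] at h2
    by_cases hall : ∀ k, 0 ≤ d * μ k + c k
    · refine Set.mem_iUnion.2 ⟨none, (mem_convexHull_range _ x).2
        ⟨fun k => d * μ k + c k, hall, ?_, h2⟩⟩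
      rw [sum_add_distrib, ← mul_sum, hμ1, mul_one, h1]
    push Not at hall
    obtain ⟨k, hk⟩ := hall
    have hkN : k ∈ univ.filter (fun i => μ i < 0) := mem_filter.2 ⟨mem_univ k, by
      by_contra h
      linarith [mul_nonneg hd (not_lt.1 h), hc k]⟩
    obtain ⟨i, hiN, himin⟩ := exists_min_image _ (fun i => c i / -μ i) ⟨k, hkN⟩
    have hi : μ i < 0 := (mem_filter.1 hiN).2
    set τ := c i / -μ i with hτ
    have hτ0 : 0 ≤ τ := div_nonneg (hc i) (by linarith)
    have hτd : τ < d := by
      refine (himin k hkN).trans_lt ?_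
      have hk0 : μ k < 0 := (mem_filter.1 hkN).2
      rw [div_lt_iff₀ (by linarith)]
      linarith
    have hci : τ * μ i + c i = 0 := by
      rw [hτ, div_neg, neg_mul, div_mul_cancel₀ _ hi.ne]; ring
    refine Set.mem_iUnion.2 ⟨some ⟨i, hi⟩, (mem_convexHull_range _ x).2
      ⟨fun j => if j = i then d - τ else τ * μ j + c j, fun j => ?_, ?_, ?_⟩⟩
    · dsimp only
      split_ifs with hj
      · linarith
      by_cases hjN : μ j < 0
      · have := himin j (mem_filter.2 ⟨mem_univ j, hjN⟩)
        rw [le_div_iff₀ (by linarith)] at this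
        linarith
      · linarith [mul_nonneg hτ0 (not_lt.1 hjN), hc j]
    · have e : ∀ j, (if j = i then d - τ else τ * μ j + c j) =
          (τ * μ j + c j) + if j = i then d - τ else 0 := fun j => by
        by_cases hj : j = i
        · subst hj; rw [if_pos rfl, if_pos rfl, hci, zero_add]
        · rw [if_neg hj, if_neg hj, add_zero]
      simp only [e, sum_add_distrib, ← mul_sum, hμ1, sum_ite_eq', mem_univ, if_true]
      linarith
    · have e : ∀ j, (if j = i then d - τ else τ * μ j + c j) • Function.update v i q j =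
          (τ * μ j + c j) • v j + if j = i then (d - τ) • q else 0 := fun j => by
        by_cases hj : j = i
        · subst hj; rw [if_pos rfl, if_pos rfl, hci, zero_smul, zero_add, Function.update_self]
        · rw [if_neg hj, if_neg hj, add_zero, Function.update_of_ne hj]
      show ∑ j, _ • Function.update v i q j = x
      simp only [e, sum_add_distrib, sum_ite_eq', mem_univ, if_true]
      conv_lhs => arg 2; rw [← hμ2]
      rw [smul_sum, ← h2, ← sum_add_distrib]
      refine sum_congr rfl fun j _ => ?_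
      rw [smul_smul, ← add_smul]
      congr 1
      ring
  have hrow : ∀ g : Fin (n + 1) → ℝ, g ≠ 0 →
      volume {x : Fin n → ℝ | g ⬝ᵥ bary v x = 0} = 0 := fun g hg => by
    simp only [bary, dotProduct_mulVec]
    refine volume_zero_of_dotProduct_homog fun h => hg ?_
    have := congrArg (fun w => w ᵥ* vmat v) h
    simpa [vecMul_vecMul, nonsing_inv_mul _ (isUnit_iff_ne_zero.2 hv)] using this
  have hnone : ∀ i : {i // μ i < 0}, AEDisjoint volume (pc none) (pc (some i)) := fun i => by
    refine measure_mono_null (fun x hx => ?_) (hrow (Pi.single i.1 1) (by simp))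
    obtain ⟨d, hd, he, -⟩ := bary_piece hv hx.2
    obtain ⟨β, h0, h1, h2⟩ := (mem_convexHull_range _ x).1 hx.1
    rw [bary_eq hv h1 h2] at he
    have : β i.1 = 0 := le_antisymm (he ▸ mul_nonpos_of_nonneg_of_nonpos hd i.2.le) (h0 _)
    simp [bary_eq hv h1 h2, this]
  have hd : Pairwise (Function.onFun (AEDisjoint volume) pc) := by
    intro o o' hne
    match o, o' with
    | none, none => exact absurd rfl hne
    | none, some i => exact hnone i
    | some i, none => exact (hnone i).symm
    | some i, some j =>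
      have hij : i.1 ≠ j.1 := fun h => hne (congrArg some (Subtype.ext h))
      refine measure_mono_null (fun x hx => ?_)
        (hrow (Pi.single i.1 (μ j.1) - Pi.single j.1 (μ i.1)) (fun h => ?_))
      · obtain ⟨a, -, ha, ha'⟩ := bary_piece hv hx.1
        obtain ⟨b, -, hb, hb'⟩ := bary_piece hv hx.2
        have hab : a = b := by
          refine le_antisymm ?_ ?_
          · have := hb' i.1; rw [ha] at this; nlinarith [show bary v q i.1 < 0 from i.2]
          · have := ha' j.1; rw [hb] at this; nlinarith [show bary v q j.1 < 0 from j.2]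
        simp [ha, hb, hab, ← hμ]
        ring
      · have := congrFun h i.1
        simp [hij] at this
        linarith [j.2]
  have hmom : moment (hull v q) = ∑ o, moment (pc o) := by
    ext a b
    have hcont : Continuous fun x : Fin n → ℝ => homog x a * homog x b :=
      ((continuous_apply a).comp continuous_homog).mul ((continuous_apply b).comp continuous_homog)
    rw [Matrix.sum_apply]
    simp only [moment, of_apply, hunion]
    rw [integral_iUnion_ae (fun o => (hcompact o).measurableSet.nullMeasurableSet) hd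
      (hunion ▸ hcont.continuousOn.integrableOn_compact isCompact_hull), tsum_fintype]
  have hi : ∀ i : {i // μ i < 0}, moment (pc (some i)) = (|(vmat v).det| / ((n + 2)! : ℝ)) •
      (vmat v * (neg' μ i.1 • (upd μ i.1 * oneJ n * (upd μ i.1)ᵀ)) * (vmat v)ᵀ) := fun i => by
    have hdi : (vmat (Function.update v i.1 q)).det ≠ 0 := by
      rw [det_vmat_update hv]; exact mul_ne_zero hv i.2.ne
    show moment (convexHull ℝ (Set.range (Function.update v i.1 q))) = _
    rw [moment_simplex hdi, det_vmat_update hv, vmat_update hv, ← hμ, abs_mul, abs_of_neg i.2,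
      transpose_mul, Matrix.mul_smul, Matrix.smul_mul, smul_smul, neg', max_eq_left (by linarith [i.2])]
    simp only [Matrix.mul_assoc]
    congr 1
    ring
  rw [hmom, Fintype.sum_option, show pc none = convexHull ℝ (Set.range v) from rfl,
    moment_simplex hv]
  simp only [hi]
  rw [← smul_sum, ← smul_add]
  congr 1
  rw [hullG, Matrix.mul_add, Matrix.add_mul, Matrix.mul_sum, Matrix.sum_mul]
  congr 1
  rw [← Fintype.sum_subtype_add_sum_subtype (fun i => μ i < 0)
    (fun i => vmat v * (neg' μ i • (upd μ i * oneJ n * (upd μ i)ᵀ)) * (vmat v)ᵀ)]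
  rw [left_eq_add]
  refine sum_eq_zero fun i _ => ?_
  simp [neg', max_eq_right (neg_nonpos.2 (not_lt.1 i.2))]

/-- The exact value of the isotropic constant of the hull. -/
theorem isotropicConst_hull {P R Q : ℝ} (hP : P = ∑ i, neg' (bary v q) i)
    (hR : R = ∑ i, neg' (bary v q) i ^ 2) (hQ : Q = ∑ i, pos' (bary v q) i ^ 2) :
    isotropicConst (hull v q) = ((n ! : ℝ) ^ (n + 3) * ((n : ℝ) + 2) / ((n + 2)! : ℝ) ^ (n + 1) *
      (1 - (1 - (1 + R) / (1 + P) ^ 2) * (1 - Q / (1 + P) ^ 2))) ^ (1 / (2 * (n : ℝ))) := by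
  obtain ⟨hμ1, -⟩ := bary_spec hv q
  have hP0 : 0 ≤ P := hP ▸ sum_nonneg fun i _ => le_max_right _ _
  have h1P : (1 + P : ℝ) ≠ 0 := by linarith
  have hfac : ((n + 2)! : ℝ) = ((n : ℝ) + 2) * ((n : ℝ) + 1) * (n ! : ℝ) := by
    rw [Nat.factorial_succ, Nat.factorial_succ]; push_cast; ring
  set a := |(vmat v).det| with ha
  have ha0 : a ≠ 0 := abs_ne_zero.2 hv
  have hV : volume.real (hull v q) = a * (1 + P) / (n ! : ℝ) := by
    rw [← moment_zero, moment_hull hv, Matrix.smul_apply, mul_apply]
    have h0 : ∀ k, vmat v 0 k = 1 := fun k => by simp [vmat]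
    simp only [mul_apply, transpose_apply, h0, one_mul, mul_one]
    rw [sum_comm, sum_hullG _ hμ1, ← hP, hfac, smul_eq_mul, ← ha]
    field_simp
  have hdet : (moment (hull v q)).det =
      (a / ((n + 2)! : ℝ)) ^ (n + 1) * a ^ 2 * (hullG (bary v q)).det := by
    rw [moment_hull hv, det_smul, Fintype.card_fin, det_mul, det_mul, det_transpose, ha, sq_abs]
    ring
  have hG := det_hullG _ hμ1 hP hR hQ
  rw [isotropicConst_eq isCompact_hull (by rw [hV]; positivity), hdet, hV,
    eq_div_iff (pow_ne_zero 3 h1P) |>.2 hG]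
  congr 1
  simp only [div_pow, mul_pow, pow_add]
  field_simp
  ring

end hull

end Vale.Agent.P254
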