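import Vale.Agent.P254.Defs

/-!
P254: second moments of simplices in homogeneous coordinates.
-/

namespace Vale.Agent.P254

open MeasureTheory Matrix Finset
open scoped Nat ENNReal

variable {n : ℕ}

/-- Homogeneous coordinates. -/
def homog (x : Fin n → ℝ) : Fin (n + 1) → ℝ := Fin.cons 1 x

@[simp] lemma homog_zero (x : Fin n → ℝ) : homog x 0 = 1 := rfl

@[simp] lemma homog_succ (x : Fin n → ℝ) (i : Fin n) : homog x i.succ = x i := by simp [homog]

lemma homog_injective : Function.Injective (homog (n := n)) := fun a b h =>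
  funext fun i => by simpa using congrFun h i.succ

lemma continuous_homog : Continuous (homog (n := n)) :=
  continuous_pi (Fin.cases (by simpa using continuous_const) fun i => by
    simpa using continuous_apply i)

/-- The moment matrix in homogeneous coordinates. -/
noncomputable def moment (K : Set (Fin n → ℝ)) : Matrix (Fin (n + 1)) (Fin (n + 1)) ℝ :=
  Matrix.of fun a b => ∫ x in K, homog x a * homog x b

lemma moment_zero (K : Set (Fin n → ℝ)) : moment K 0 0 = volume.real K := by
  simp [moment]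

lemma moment_congr (A : Matrix (Fin (n + 1)) (Fin (n + 1)) ℝ) {K : Set (Fin n → ℝ)}
    (hK : IsCompact K) (a b : Fin (n + 1)) :
    (A * moment K * Aᵀ) a b = ∫ x in K, (A *ᵥ homog x) a * (A *ᵥ homog x) b := by
  have hi : ∀ c d : Fin (n + 1), IntegrableOn (fun x => A a c * A b d * (homog x c * homog x d))
      K := fun c d => by
    have hc := (continuous_apply c).comp (continuous_homog (n := n))
    have hd := (continuous_apply d).comp (continuous_homog (n := n))
    exact (continuous_const.mul (hc.mul hd)).continuousOn.integrableOn_compact hK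
  simp only [mulVec, dotProduct, sum_mul_sum, mul_mul_mul_comm]
  rw [integral_finsetSum _ fun c _ => integrable_finsetSum _ fun d _ => hi c d, mul_apply]
  simp only [mul_apply, sum_mul, transpose_apply, moment, of_apply]
  rw [sum_comm]
  refine sum_congr rfl fun c _ => ?_
  rw [integral_finsetSum _ fun d _ => hi c d]
  refine sum_congr rfl fun d _ => ?_
  rw [integral_const_mul]
  ring

lemma det_eq_det_submatrix {M : Matrix (Fin (n + 1)) (Fin (n + 1)) ℝ}
    (h : ∀ j : Fin n, M 0 j.succ = 0) :
    M.det = M 0 0 * (M.submatrix Fin.succ Fin.succ).det := by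
  rw [det_succ_row_zero, Fin.sum_univ_succ]
  simp [h]

lemma det_moment {K : Set (Fin n → ℝ)} (hK : IsCompact K) (hV : volume.real K ≠ 0) :
    (moment K).det = volume.real K ^ (n + 1) * (cov K).det := by
  set L : Matrix (Fin (n + 1)) (Fin (n + 1)) ℝ := Matrix.of (Fin.cases (Pi.single 0 1)
    fun i => Fin.cons (-centroid K i) (Pi.single i 1)) with hL
  have hL0 : ∀ x, (L *ᵥ homog x) 0 = 1 := fun x => by
    simp [hL, mulVec, dotProduct, Fin.sum_univ_succ]
  have hLs : ∀ x i, (L *ᵥ homog x) (Fin.succ i) = x i - centroid K i := fun x i => by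
    simp [hL, mulVec, dotProduct, Fin.sum_univ_succ, Pi.single_apply]; ring
  have hLdet : L.det = 1 := by
    rw [det_eq_det_submatrix fun j => by simp [hL]]
    rw [show L.submatrix Fin.succ Fin.succ = 1 by ext i j; simp [hL, one_apply, Pi.single_apply, eq_comm]]
    simp [hL]
  have h00 : (L * moment K * Lᵀ) 0 0 = volume.real K := by
    simp [moment_congr L hK, hL0]
  have h0s : ∀ j : Fin n, (L * moment K * Lᵀ) 0 j.succ = 0 := fun j => by
    simp only [moment_congr L hK, hL0, hLs, one_mul]
    rw [integral_sub ((continuous_apply j).continuousOn.integrableOn_compact hK)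
      ((continuous_const).continuousOn.integrableOn_compact hK), setIntegral_const, smul_eq_mul,
      centroid, mul_inv_cancel_left₀ hV, sub_self]
  have hsub : (L * moment K * Lᵀ).submatrix Fin.succ Fin.succ = volume.real K • cov K := by
    ext i j
    simp [moment_congr L hK, hLs, cov, mul_inv_cancel_left₀ hV]
  have h := det_eq_det_submatrix h0s
  rw [hsub, h00, det_smul, Fintype.card_fin, det_mul, det_mul, det_transpose, hLdet] at h
  linear_combination h

lemma isotropicConst_eq {K : Set (Fin n → ℝ)} (hK : IsCompact K) (hV : volume.real K ≠ 0) :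
    isotropicConst K = ((moment K).det / volume.real K ^ (n + 3)) ^ (1 / (2 * (n : ℝ))) := by
  rw [isotropicConst, det_moment hK hV, pow_add (volume.real K) (n + 1) 2,
    mul_div_mul_left _ _ (pow_ne_zero _ hV)]

/-- The monomial integral over the positive orthant against the exponential weight. -/
lemma lintegral_orthant (k : Fin n → ℕ) :
    ∫⁻ x in Set.univ.pi fun _ : Fin n => Set.Ioi (0 : ℝ),
      ENNReal.ofReal ((∏ i, x i ^ k i) * Real.exp (-∑ i, x i)) =
        ENNReal.ofReal (∏ i, ((k i)! : ℝ)) := by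
  have hg : ∀ m : ℕ, IntegrableOn (fun t : ℝ => t ^ m * Real.exp (-t)) (Set.Ioi 0) ∧
      (∫ t in Set.Ioi (0 : ℝ), t ^ m * Real.exp (-t)) = (m ! : ℝ) := by
    intro m
    have e : Set.EqOn (fun t : ℝ => Real.exp (-t) * t ^ (((m : ℝ) + 1) - 1))
        (fun t => t ^ m * Real.exp (-t)) (Set.Ioi 0) := fun t _ => by
      simp [mul_comm]
    refine ⟨(Real.GammaIntegral_convergent (by positivity)).congr_fun e measurableSet_Ioi, ?_⟩
    rw [← setIntegral_congr_fun measurableSet_Ioi e, ← Real.Gamma_eq_integral (by positivity),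
      Real.Gamma_nat_eq_factorial]
  have e : ∀ x : Fin n → ℝ, (∏ i, x i ^ k i) * Real.exp (-∑ i, x i) =
      ∏ i, x i ^ k i * Real.exp (-x i) := fun x => by
    rw [prod_mul_distrib, ← Real.exp_sum, sum_neg_distrib]
  simp only [e]
  rw [volume_pi, Measure.restrict_pi_pi]
  rw [← ofReal_integral_eq_lintegral_ofReal
    (Integrable.fintype_prod (f := fun i (t : ℝ) => t ^ k i * Real.exp (-t))
      fun i => (hg (k i)).1)]
  · rw [integral_fintype_prod_eq_prod (fun i (t : ℝ) => t ^ k i * Real.exp (-t))]
    simp only [(hg _).2]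
  · rw [← Measure.restrict_pi_pi]
    exact (ae_restrict_mem (MeasurableSet.univ_pi fun _ => measurableSet_Ioi)).mono fun x hx =>
      prod_nonneg fun i _ => mul_nonneg (pow_nonneg (le_of_lt (hx i (Set.mem_univ i))) _)
        (Real.exp_pos _).le

/-- The standard simplex in coordinate space. -/
def stdS (n : ℕ) : Set (Fin n → ℝ) := {x | (∀ i, 0 ≤ x i) ∧ ∑ i, x i ≤ 1}

lemma isCompact_stdS (n : ℕ) : IsCompact (stdS n) := by
  refine (isCompact_Icc (a := (0 : Fin n → ℝ)) (b := fun _ => 1)).of_isClosed_subset ?_ ?_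
  · rw [stdS, Set.ofPred_and, Set.ofPred_forall]
    exact (isClosed_iInter fun i => isClosed_le continuous_const (continuous_apply i)).inter
      (isClosed_le (continuous_finsetSum _ fun i _ => continuous_apply i) continuous_const)
  · exact fun x hx => ⟨hx.1, fun i =>
      (single_le_sum (fun j _ => hx.1 j) (mem_univ i)).trans hx.2⟩

lemma lintegral_stdS (k : Fin n → ℕ) :
    ∫⁻ x in stdS n, ENNReal.ofReal (∏ i, x i ^ k i) =
      ENNReal.ofReal ((∏ i, ((k i)! : ℝ)) / ((n + ∑ i, k i)! : ℝ)) := by
  set d := n + ∑ i, k i with hd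
  set O : Set (Fin n → ℝ) := Set.univ.pi fun _ => Set.Ioi 0 with hO
  have hOm : MeasurableSet O := MeasurableSet.univ_pi fun _ => measurableSet_Ioi
  set f : (Fin n → ℝ) → ℝ≥0∞ := fun x => ENNReal.ofReal (∏ i, x i ^ k i) with hf
  have hfm : Measurable f := by fun_prop
  set G := ∫⁻ x in stdS n, f x with hG
  have hae : O =ᵐ[volume] (Set.univ.pi fun _ : Fin n => Set.Ici (0 : ℝ) : Set (Fin n → ℝ)) := by
    rw [hO, volume_pi]
    exact Measure.ae_eq_set_pi fun i _ => Ioi_ae_eq_Ici
  have hsc : ∀ s : ℝ, 0 < s →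
      ∫⁻ x in O ∩ {x | ∑ i, x i ≤ s}, f x = ENNReal.ofReal (s ^ d) * G := by
    intro s hs
    have h1 : ∫⁻ x in O ∩ {x | ∑ i, x i ≤ s}, f x =
        ∫⁻ x in (Set.univ.pi fun _ : Fin n => Set.Ici (0 : ℝ)) ∩ {x | ∑ i, x i ≤ s}, f x :=
      setLIntegral_congr (hae.inter (by rfl))
    have h2 : (fun x : Fin n → ℝ => s • x) ⁻¹'
        ((Set.univ.pi fun _ : Fin n => Set.Ici (0 : ℝ)) ∩ {x | ∑ i, x i ≤ s}) = stdS n := by
      ext x
      simp [stdS, ← mul_sum, mul_nonneg_iff_of_pos_left hs, mul_le_iff_le_one_right hs,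
        Pi.le_def]
    have hmap := Measure.map_addHaar_smul (volume : Measure (Fin n → ℝ)) hs.ne'
    have hTm : MeasurableSet
        ((Set.univ.pi fun _ : Fin n => Set.Ici (0 : ℝ)) ∩ {x | ∑ i, x i ≤ s}) :=
      (MeasurableSet.univ_pi fun _ => measurableSet_Ici).inter
        (measurableSet_le (by fun_prop) measurable_const)
    have h3 : ∫⁻ x in stdS n, f (s • x) = ENNReal.ofReal (s ^ n)⁻¹ *
        ∫⁻ x in O ∩ {x | ∑ i, x i ≤ s}, f x := by
      rw [h1, ← h2, ← setLIntegral_map hTm hfm (measurable_const_smul s), hmap,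
        Measure.restrict_smul, lintegral_smul_measure, Module.finrank_fin_fun,
        abs_of_nonneg (by positivity)]
      rfl
    have h4 : ∫⁻ x in stdS n, f (s • x) = ENNReal.ofReal (s ^ ∑ i, k i) * G := by
      rw [hG, ← lintegral_const_mul _ hfm]
      refine lintegral_congr fun x => ?_
      simp only [hf, Pi.smul_apply, smul_eq_mul, mul_pow, prod_mul_distrib, prod_pow_eq_pow_sum]
      rw [ENNReal.ofReal_mul (by positivity)]
    rw [h4] at h3
    rw [hd, pow_add, ENNReal.ofReal_mul (by positivity), mul_assoc, h3, ← mul_assoc,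
      ← ENNReal.ofReal_mul (by positivity), mul_inv_cancel₀ (by positivity), ENNReal.ofReal_one,
      one_mul]
  -- the two ways of integrating
  set D : Set ((Fin n → ℝ) × ℝ) := {q | q.1 ∈ O ∧ ∑ i, q.1 i ≤ q.2} with hDdef
  have hD : MeasurableSet D := (measurable_fst hOm).inter
    (measurableSet_le (f := fun q : (Fin n → ℝ) × ℝ => ∑ i, q.1 i) (by fun_prop) measurable_snd)
  set F : (Fin n → ℝ) → ℝ → ℝ≥0∞ := fun x s =>
    D.indicator (fun q => f q.1 * ENNReal.ofReal (Real.exp (-q.2))) (x, s) with hF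
  have hFm : Measurable (Function.uncurry F) :=
    ((hfm.comp measurable_fst).mul (by fun_prop)).indicator hD
  have hleft : ∫⁻ x, ∫⁻ s in Set.Ioi (0 : ℝ), F x s = ENNReal.ofReal (∏ i, ((k i)! : ℝ)) := by
    rw [← lintegral_orthant k, ← lintegral_indicator hOm]
    refine lintegral_congr fun x => ?_
    by_cases hx : x ∈ O
    · have hsx : 0 ≤ ∑ i, x i := sum_nonneg fun i _ => le_of_lt (hx i (Set.mem_univ i))
      have e : ∀ s, F x s = (Set.Ici (∑ i, x i)).indicator
          (fun s => f x * ENNReal.ofReal (Real.exp (-s))) s := fun s => by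
        simp [hF, hDdef, Set.indicator, hx]
      simp only [e]
      have hIoi : (Set.Ici (∑ i, x i) ∩ Set.Ioi (0 : ℝ) : Set ℝ) =ᵐ[volume]
          Set.Ioi (∑ i, x i) :=
        ((ae_eq_refl _).inter Ioi_ae_eq_Ici).trans
          (by rw [Set.inter_eq_left.2 (Set.Ici_subset_Ici.2 hsx)]; exact Ioi_ae_eq_Ici.symm)
      rw [lintegral_indicator measurableSet_Ici, Measure.restrict_restrict measurableSet_Ici,
        setLIntegral_congr hIoi, lintegral_const_mul _ (by fun_prop),
        ← ofReal_integral_eq_lintegral_ofReal (integrableOn_exp_neg_Ioi _)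
          (Filter.Eventually.of_forall fun _ => (Real.exp_pos _).le),
        integral_exp_neg_Ioi, Set.indicator_of_mem hx, hf]
      rw [← ENNReal.ofReal_mul (prod_nonneg fun i _ =>
        pow_nonneg (le_of_lt (hx i (Set.mem_univ i))) _)]
    · simp [hF, hDdef, Set.indicator, hx]
  have hright : ∫⁻ s in Set.Ioi (0 : ℝ), ∫⁻ x, F x s = ENNReal.ofReal (d ! : ℝ) * G := by
    have e : ∀ s ∈ Set.Ioi (0 : ℝ), ∫⁻ x, F x s =
        ENNReal.ofReal (s ^ d * Real.exp (-s)) * G := fun s hs => by
      have h : ∀ x, F x s = (O ∩ {x | ∑ i, x i ≤ s}).indicator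
          (fun x => f x * ENNReal.ofReal (Real.exp (-s))) x := fun x => by
        classical
        show D.indicator (fun q => f q.1 * ENNReal.ofReal (Real.exp (-q.2))) (x, s) = _
        rw [Set.indicator_apply, Set.indicator_apply]
        exact if_congr Iff.rfl rfl rfl
      simp only [h]
      rw [lintegral_indicator (hOm.inter (measurableSet_le (by fun_prop) measurable_const)),
        lintegral_mul_const _ hfm, hsc s hs, ENNReal.ofReal_mul (pow_nonneg (le_of_lt hs) d)]
      ring
    rw [setLIntegral_congr_fun measurableSet_Ioi e, lintegral_mul_const _ (by fun_prop)]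
    congr 1
    have h := lintegral_orthant (n := 1) (fun _ => d)
    rw [← (volume_preserving_funUnique (Fin 1) ℝ).setLIntegral_comp_preimage measurableSet_Ioi
      (by fun_prop)]
    simp [Set.pi, MeasurableEquiv.funUnique, Set.preimage] at h ⊢
    exact h
  have hsw : ∫⁻ x, ∫⁻ s in Set.Ioi (0 : ℝ), F x s = ∫⁻ s in Set.Ioi (0 : ℝ), ∫⁻ x, F x s :=
    lintegral_lintegral_swap hFm.aemeasurable
  rw [hleft, hright] at hsw
  rw [ENNReal.ofReal_div_of_pos (by positivity), hsw,
    ENNReal.eq_div_iff (by positivity) ENNReal.ofReal_ne_top]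

lemma integral_stdS (k : Fin n → ℕ) :
    ∫ x in stdS n, ∏ i, x i ^ k i = (∏ i, ((k i)! : ℝ)) / ((n + ∑ i, k i)! : ℝ) := by
  rw [integral_eq_lintegral_of_nonneg_ae
    ((ae_restrict_mem (isCompact_stdS n).measurableSet).mono fun x hx =>
      prod_nonneg fun i _ => pow_nonneg (hx.1 i) _)
    (continuous_finsetProd _ fun i _ => (continuous_apply i).pow _).aestronglyMeasurable,
    lintegral_stdS,
    ENNReal.toReal_ofReal (by positivity)]

/-- The matrix of homogeneous vertex coordinates. -/
def vmat (v : Fin (n + 1) → Fin n → ℝ) : Matrix (Fin (n + 1)) (Fin (n + 1)) ℝ :=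
  Matrix.of fun a k => homog (v k) a

lemma homog_eq_mulVec_iff (v : Fin (n + 1) → Fin n → ℝ) (β : Fin (n + 1) → ℝ)
    (x : Fin n → ℝ) : homog x = vmat v *ᵥ β ↔ ∑ k, β k = 1 ∧ ∑ k, β k • v k = x := by
  constructor
  · intro h
    refine ⟨?_, funext fun i => ?_⟩
    · simpa [vmat, mulVec, dotProduct] using (congrFun h 0).symm
    · simpa [vmat, mulVec, dotProduct, mul_comm] using (congrFun h i.succ).symm
  · rintro ⟨h1, h2⟩
    funext a
    induction a using Fin.cases with
    | zero => simpa [vmat, mulVec, dotProduct] using h1.symm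
    | succ i => simpa [vmat, mulVec, dotProduct, mul_comm] using (congrFun h2 i).symm

lemma mem_convexHull_range {ι E : Type*} [Fintype ι] [AddCommGroup E] [Module ℝ E]
    (w : ι → E) (x : E) : x ∈ convexHull ℝ (Set.range w) ↔
      ∃ β : ι → ℝ, (∀ k, 0 ≤ β k) ∧ ∑ k, β k = 1 ∧ ∑ k, β k • w k = x := by
  classical
  constructor
  · revert x
    refine convexHull_min (t := {x | ∃ β : ι → ℝ, (∀ k, 0 ≤ β k) ∧ ∑ k, β k = 1 ∧
      ∑ k, β k • w k = x}) ?_ ?_
    · rintro _ ⟨k, rfl⟩
      exact ⟨Pi.single k 1, fun j => by by_cases h : j = k <;> simp [h],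
        by simp [Pi.single_apply], by simp [Pi.single_apply]⟩
    · rintro _ ⟨β, h1, h2, rfl⟩ _ ⟨γ, g1, g2, rfl⟩ a b ha hb hab
      refine ⟨a • β + b • γ, fun k => add_nonneg (mul_nonneg ha (h1 k)) (mul_nonneg hb (g1 k)),
        ?_, ?_⟩
      · simp [sum_add_distrib, ← mul_sum, h2, g2, hab]
      · simp [add_smul, sum_add_distrib, ← smul_smul, ← smul_sum]
  · rintro ⟨β, h1, h2, rfl⟩
    exact (convex_convexHull ℝ _).sum_mem (fun k _ => h1 k) h2
      fun k _ => subset_convexHull ℝ _ (Set.mem_range_self k)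

lemma affineIndependent_iff_det (v : Fin (n + 1) → Fin n → ℝ) :
    AffineIndependent ℝ v ↔ (vmat v).det ≠ 0 := by
  rw [ne_eq, ← exists_mulVec_eq_zero_iff, affineIndependent_iff_eq_of_fintype_affineCombination_eq]
  constructor
  · rintro h ⟨β, hβ, h0⟩
    apply hβ
    have hs : ∑ k, β k = 0 := by simpa [vmat, mulVec, dotProduct] using congrFun h0 0
    have hv : ∑ k, β k • v k = 0 := funext fun i => by
      simpa [vmat, mulVec, dotProduct, mul_comm] using congrFun h0 i.succ
    set u : Fin (n + 1) → ℝ := Pi.single 0 1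
    have hu : ∑ k, u k = 1 := by simp [u]
    have := h u (u + β) hu (by simp [sum_add_distrib, hu, hs]) (by
      rw [univ.affineCombination_eq_linear_combination _ _ hu,
        univ.affineCombination_eq_linear_combination _ _ (by simp [sum_add_distrib, hu, hs])]
      simp [add_smul, sum_add_distrib, hv])
    funext k
    simpa using (congrFun this k).symm
  · intro h w₁ w₂ h1 h2 he
    rw [univ.affineCombination_eq_linear_combination _ _ h1,
      univ.affineCombination_eq_linear_combination _ _ h2] at he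
    by_contra hne
    refine h ⟨w₁ - w₂, sub_ne_zero.2 hne, ?_⟩
    have e1 := (homog_eq_mulVec_iff v w₁ (∑ k, w₁ k • v k)).2 ⟨h1, rfl⟩
    have e2 := (homog_eq_mulVec_iff v w₂ (∑ k, w₁ k • v k)).2 ⟨h2, he.symm⟩
    rw [mulVec_sub, ← e1, ← e2, sub_self]

/-- The matrix `I + J`. -/
def oneJ (n : ℕ) : Matrix (Fin (n + 1)) (Fin (n + 1)) ℝ := 1 + Matrix.of fun _ _ => 1

/-- The vertices of the standard simplex. -/
def stdV (n : ℕ) : Fin (n + 1) → Fin n → ℝ := Fin.cases 0 fun i => Pi.single i 1

lemma det_vmat_stdV (n : ℕ) : (vmat (stdV n)).det = 1 := by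
  rw [← det_transpose, det_eq_det_submatrix fun j => by simp [vmat, stdV]]
  rw [show ((vmat (stdV n))ᵀ).submatrix Fin.succ Fin.succ = 1 by
    ext i j; simp [vmat, stdV, one_apply, Pi.single_apply, eq_comm]]
  simp [vmat, stdV]

lemma moment_stdS : moment (stdS n) = (((n + 2)! : ℝ))⁻¹ •
    (vmat (stdV n) * oneJ n * (vmat (stdV n))ᵀ) := by
  classical
  set P := vmat (stdV n) with hP
  have hrow : ∀ a : Fin (n + 1), ∑ k, P a k = if a = 0 then (n : ℝ) + 1 else 1 := by
    intro a
    induction a using Fin.cases with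
    | zero => simp [hP, vmat]
    | succ i => simp [hP, vmat, stdV, Fin.sum_univ_succ, Pi.single_apply, Fin.succ_ne_zero]
  have hr : ∀ a b, (P * oneJ n * Pᵀ) a b =
      (∑ k, P a k * P b k) + (∑ k, P a k) * ∑ k, P b k := by
    intro a b
    rw [oneJ, Matrix.mul_add, Matrix.mul_one, Matrix.add_mul, Matrix.add_apply, mul_apply, mul_apply]
    simp [mul_apply, sum_mul, mul_sum]
  have hfac : ((n + 2)! : ℝ) = ((n : ℝ) + 2) * ((n : ℝ) + 1) * (n ! : ℝ) := by
    rw [Nat.factorial_succ, Nat.factorial_succ]; push_cast; ring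
  have hfac1 : ((n + 1)! : ℝ) = ((n : ℝ) + 1) * (n ! : ℝ) := by
    rw [Nat.factorial_succ]; push_cast; ring
  have h0 : moment (stdS n) 0 0 = 1 / (n ! : ℝ) := by
    simpa [moment] using integral_stdS (0 : Fin n → ℕ)
  have h1 : ∀ j : Fin n, (∫ x in stdS n, x j) = 1 / ((n + 1)! : ℝ) := fun j => by
    simpa [Pi.single_apply, apply_ite Nat.factorial] using integral_stdS (Pi.single j 1)
  have h2 : ∀ i j : Fin n, (∫ x in stdS n, x i * x j) =
      (if i = j then 2 else 1) / ((n + 2)! : ℝ) := fun i j => by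
    have h := integral_stdS (Pi.single i 1 + Pi.single j 1)
    have e : ∀ x : Fin n → ℝ,
        ∏ l, x l ^ (Pi.single i 1 + Pi.single j 1 : Fin n → ℕ) l = x i * x j := fun x => by
      simp only [Pi.add_apply, pow_add, prod_mul_distrib]
      simp [Pi.single_apply]
    simp only [e] at h
    rw [h]
    congr 1
    · by_cases hij : i = j
      · subst hij
        simp [Pi.single_apply, apply_ite Nat.factorial, ← two_mul]
      · rw [if_neg hij]
        refine prod_eq_one fun l _ => ?_
        by_cases h1 : l = i <;> by_cases h2 : l = j <;> simp_all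
    · simp [sum_add_distrib]
  ext a b
  rw [Matrix.smul_apply, hr, hrow, hrow, smul_eq_mul]
  induction a using Fin.cases with
  | zero =>
    induction b using Fin.cases with
    | zero =>
      rw [h0, hfac]
      simp [hP, vmat]
      field_simp
      ring
    | succ j =>
      simp only [moment, of_apply, homog_zero, homog_succ, one_mul, h1, hfac, hfac1]
      simp [hP, vmat, stdV, Fin.sum_univ_succ, Pi.single_apply]
      field_simp
      ring
  | succ i =>
    induction b using Fin.cases with
    | zero =>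
      simp only [moment, of_apply, homog_zero, homog_succ, mul_one, h1, hfac, hfac1]
      simp [hP, vmat, stdV, Fin.sum_univ_succ, Pi.single_apply]
      field_simp
      ring
    | succ j =>
      simp only [moment, of_apply, homog_succ, h2]
      simp [hP, vmat, stdV, Fin.sum_univ_succ, Pi.single_apply, Fin.succ_ne_zero]
      split_ifs with h <;> simp_all <;> field_simp <;> ring

/-- The moment matrix of a simplex. -/
theorem moment_simplex {v : Fin (n + 1) → Fin n → ℝ} (hv : (vmat v).det ≠ 0) :
    moment (convexHull ℝ (Set.range v)) = (|(vmat v).det| / ((n + 2)! : ℝ)) •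
      (vmat v * oneJ n * (vmat v)ᵀ) := by
  classical
  set P := vmat (stdV n) with hP
  obtain ⟨H, hH⟩ : ∃ H : Matrix (Fin (n + 1)) (Fin (n + 1)) ℝ, H = vmat v * P⁻¹ := ⟨_, rfl⟩
  have hPu : IsUnit P.det := by rw [hP, det_vmat_stdV]; exact isUnit_one
  have hHP : H * P = vmat v := by rw [hH, Matrix.mul_assoc, nonsing_inv_mul _ hPu, Matrix.mul_one]
  have hHdet : H.det = (vmat v).det := by
    rw [hH, det_mul, det_nonsing_inv, hP, det_vmat_stdV, Ring.inverse_one, mul_one]
  have hH0 : H 0 = Pi.single 0 1 := by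
    funext j
    have e : ∀ k, (vmat v) 0 k = P 0 k := fun k => by simp [vmat, hP]
    rw [hH, mul_apply]
    simp only [e]
    rw [← mul_apply, mul_nonsing_inv _ hPu, one_apply]
    simp [Pi.single_apply, eq_comm]
  set A := H.submatrix Fin.succ Fin.succ with hA
  have hAdet : A.det = (vmat v).det := by
    rw [← hHdet, det_eq_det_submatrix (M := H) fun j => by simp [hH0], hH0]
    simp [hA]
  set phi : (Fin n → ℝ) → (Fin n → ℝ) := fun x => Fin.tail (H *ᵥ homog x) with hphi
  have hhom : ∀ x, homog (phi x) = H *ᵥ homog x := fun x => by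
    funext a
    induction a using Fin.cases with
    | zero => simp [mulVec, hH0, dotProduct, Pi.single_apply]
    | succ i => simp [hphi, Fin.tail]
  have hlin : ∀ x, phi x = (fun i => H i.succ 0) + A *ᵥ x := fun x => by
    funext i
    simp [hphi, Fin.tail, mulVec, dotProduct, Fin.sum_univ_succ, hA]
  have himg : phi '' stdS n = convexHull ℝ (Set.range v) := by
    ext y
    rw [mem_convexHull_range]
    constructor
    · rintro ⟨x, hx, rfl⟩
      refine ⟨Fin.cons (1 - ∑ i, x i) x, fun k => ?_, ?_⟩
      · induction k using Fin.cases with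
        | zero => simpa using hx.2
        | succ i => simpa using hx.1 i
      · rw [← homog_eq_mulVec_iff, hhom, ← hHP, ← mulVec_mulVec]
        refine congrArg (fun z => H *ᵥ z) ?_
        rw [hP, homog_eq_mulVec_iff]
        exact ⟨by simp [Fin.sum_univ_succ], funext fun i => by
          simp [Fin.sum_univ_succ, stdV, Pi.single_apply]⟩
    · rintro ⟨β, h0, h1, h2⟩
      refine ⟨Fin.tail β, ⟨fun i => h0 i.succ, ?_⟩, homog_injective ?_⟩
      · rw [Fin.sum_univ_succ] at h1
        simp only [Fin.tail]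
        linarith [h0 0]
      · rw [hhom, (homog_eq_mulVec_iff v β y).2 ⟨h1, h2⟩, ← hHP, ← mulVec_mulVec]
        refine congrArg (fun z => H *ᵥ z) ?_
        rw [hP, homog_eq_mulVec_iff]
        exact ⟨h1, funext fun i => by
          simp [Fin.sum_univ_succ, stdV, Pi.single_apply, Fin.tail]⟩
  have hinj : Set.InjOn phi (stdS n) := fun x _ y _ h => by
    rw [hlin, hlin, add_right_inj] at h
    exact mulVec_injective_iff_isUnit.2 ((isUnit_iff_isUnit_det A).2
      (isUnit_iff_ne_zero.2 (hAdet ▸ hv))) h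
  set T : (Fin n → ℝ) →L[ℝ] (Fin n → ℝ) := (Matrix.toLin' A).toContinuousLinearMap with hT
  have hder : ∀ x ∈ stdS n, HasFDerivWithinAt phi T (stdS n) x := fun x _ => by
    have h : phi = fun x => (fun i => H i.succ 0) + T x := funext fun x => by simp [hT, hlin]
    rw [h]
    exact (T.hasFDerivWithinAt).const_add _
  have hTdet : T.det = (vmat v).det := by
    simp [hT, ContinuousLinearMap.det, LinearMap.det_toLin', hAdet]
  ext a b
  rw [moment, of_apply, ← himg, integral_image_eq_integral_abs_det_fderiv_smul volume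
    (isCompact_stdS n).measurableSet hder hinj]
  simp only [hTdet, smul_eq_mul, hhom]
  rw [integral_const_mul, ← moment_congr H (isCompact_stdS n) a b, moment_stdS, ← hP]
  rw [Matrix.mul_smul, Matrix.smul_mul, Matrix.smul_apply, Matrix.smul_apply, ← hHP,
    transpose_mul]
  simp only [Matrix.mul_assoc, smul_eq_mul]
  rw [hHP]
  ring

end Vale.Agent.P254
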